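import Vale.Agent.P130.Simple.Defs

/-!
# P130: interface and shared facts of the spectral module

`cm` is normalised Lebesgue measure on a period.  A `Circle C` is a family `psi k` such that
`a ↦ tp a' · psi k`, for `a = (z - 1) a'`, is compatible with refinement and isometric.
-/

open Finset MeasureTheory
open scoped ComplexConjugate

namespace Vale.Agent.P130.Simple.Spectral

open Vale.Agent.P110.UF (ex)

/-- Lebesgue measure on a period. -/
noncomputable def cm : Measure ℝ := volume.restrict (Set.Ioc (0 : ℝ) 1)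

instance : IsProbabilityMeasure cm := ⟨by simp [cm]⟩

/-- The coefficients of the refinement of a step function from stage `J` to stage `J + 1`. -/
def up (C : Chain) (J : ℕ) (a : ℕ → ℂ) (m : ℕ) : ℂ :=
  ∑ i ∈ range (C.p J), ∑ k ∈ range (C.H J), if C.t J i + k = m then a k else 0

/-- The coefficients of `(z - 1) g`, for `g` supported in `range n`. -/
def dif (g : ℕ → ℂ) (n m : ℕ) : ℂ :=
  (if 0 < m ∧ m - 1 < n then g (m - 1) else 0) - if m < n then g m else 0

/-- The circle side of the isometry. -/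
structure Circle (C : Chain) where
  psi : ℕ → ℝ → ℂ
  meas : ∀ k, Measurable (psi k)
  memLp : ∀ k, MemLp (psi k) 2 cm
  refine_eq : ∀ k, psi k =ᵐ[cm] fun ξ => C.P k ξ * psi (k + 1) ξ
  norm : ∀ k n : ℕ, n + 1 ≤ C.H k → ∀ g : ℕ → ℂ,
    ∫ ξ, ‖tp g n ξ * psi k ξ‖ ^ 2 ∂cm = ∑ m ∈ range (n + 1), ‖dif g n m‖ ^ 2
  ne_zero : ∀ k, ∀ᵐ ξ ∂cm, psi k ξ ≠ 0

/-- The circle side exists. -/
def CircleStmt : Prop := ∀ C : Chain, Nonempty (Circle C)

/-- Fourier uniqueness. -/
def UniqueStmt : Prop :=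
  ∀ F : ℝ → ℂ, Integrable F cm → (∀ n : ℤ, ∫ ξ, ex (n * ξ) * F ξ ∂cm = 0) → F =ᵐ[cm] 0

lemma ex_add (x y : ℝ) : ex (x + y) = ex x * ex y := by
  simp only [ex]
  rw [← Complex.exp_add]
  congr 1
  push_cast
  ring

lemma ex_zero : ex 0 = 1 := by simp [ex]

lemma norm_ex (x : ℝ) : ‖ex x‖ = 1 := Complex.norm_exp_ofReal_mul_I _

lemma conj_ex (x : ℝ) : conj (ex x) = ex (-x) := by
  simp only [ex, ← Complex.exp_conj, map_mul, Complex.conj_ofReal, Complex.conj_I]
  congr 1
  push_cast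
  ring

@[fun_prop]
lemma continuous_ex : Continuous ex := by
  unfold Vale.Agent.P110.UF.ex
  fun_prop

@[fun_prop]
lemma continuous_tp (g : ℕ → ℂ) (n : ℕ) : Continuous (tp g n) := by
  unfold tp
  fun_prop

lemma continuous_P (C : Chain) (J : ℕ) : Continuous (C.P J) := by
  unfold Chain.P stageP
  fun_prop

lemma integral_ex (n : ℤ) : ∫ ξ, ex (n * ξ) ∂cm = if n = 0 then 1 else 0 := by
  rw [cm, ← intervalIntegral.integral_of_le zero_le_one]
  split_ifs with h
  · simp [h, ex_zero]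
  · have hc : ((2 * Real.pi * (n : ℝ) : ℝ) : ℂ) * Complex.I ≠ 0 :=
      mul_ne_zero (by exact_mod_cast (by positivity : (2 * Real.pi * (n : ℝ)) ≠ 0)) Complex.I_ne_zero
    have e : ∀ ξ : ℝ, ex (n * ξ) =
        Complex.exp (((2 * Real.pi * (n : ℝ) : ℝ) : ℂ) * Complex.I * ξ) := fun ξ => by
      simp only [ex]
      congr 1
      push_cast
      ring
    simp only [e]
    rw [integral_exp_mul_complex hc]
    have h1 : Complex.exp (((2 * Real.pi * (n : ℝ) : ℝ) : ℂ) * Complex.I * ((1 : ℝ) : ℂ)) = 1 := by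
      rw [Complex.exp_eq_one_iff]
      exact ⟨n, by push_cast; ring⟩
    rw [h1]
    simp

/-- Parseval for a trigonometric polynomial. -/
lemma parseval (g : ℕ → ℂ) (n : ℕ) : ∫ ξ, ‖tp g n ξ‖ ^ 2 ∂cm = ∑ k ∈ range n, ‖g k‖ ^ 2 := by
  have e : ∀ ξ, ((‖tp g n ξ‖ ^ 2 : ℝ) : ℂ) =
      ∑ k ∈ range n, ∑ l ∈ range n, g k * conj (g l) * ex (((k : ℤ) - l : ℤ) * ξ) := fun ξ => by
    rw [Complex.ofReal_pow, ← Complex.mul_conj', tp, map_sum, sum_mul_sum]
    refine sum_congr rfl fun k _ => sum_congr rfl fun l _ => ?_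
    rw [map_mul, conj_ex, show ((((k : ℤ) - l : ℤ) : ℝ)) * ξ = k * ξ + -(l * ξ) by push_cast; ring,
      ex_add]
    ring
  apply Complex.ofReal_injective
  rw [← integral_complex_ofReal]
  simp only [e]
  have hi : ∀ (k l : ℕ), Integrable (fun ξ => g k * conj (g l) * ex (((k : ℤ) - l : ℤ) * ξ)) cm :=
    fun k l => (Continuous.integrableOn_Ioc (by fun_prop))
  rw [integral_finsetSum _ fun k _ => integrable_finsetSum _ fun l _ => hi k l, Complex.ofReal_sum]
  refine sum_congr rfl fun k hk => ?_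
  rw [integral_finsetSum _ fun l _ => hi k l, Finset.sum_eq_single k]
  · rw [integral_const_mul, integral_ex, if_pos (sub_self _), mul_one, Complex.mul_conj',
      Complex.ofReal_pow]
  · intro l _ hl
    rw [integral_const_mul, integral_ex, if_neg (by omega), mul_zero]
  · exact fun h => absurd hk h

lemma tp_dif (g : ℕ → ℂ) (n : ℕ) (ξ : ℝ) :
    tp (dif g n) (n + 1) ξ = (ex ξ - 1) * tp g n ξ := by
  simp only [tp, dif, sub_mul, Finset.sum_sub_distrib, one_mul, Finset.mul_sum]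
  congr 1
  · rw [Finset.sum_range_succ']
    simp only [lt_self_iff_false, false_and, if_false, zero_mul, add_zero]
    refine sum_congr rfl fun i hi => ?_
    rw [if_pos ⟨Nat.succ_pos i, by simpa using hi⟩, Nat.add_sub_cancel,
      show ((i + 1 : ℕ) : ℝ) * ξ = ξ + i * ξ by push_cast; ring, ex_add]
    ring
  · rw [Finset.sum_range_succ, if_neg (lt_irrefl n), zero_mul, add_zero]
    exact sum_congr rfl fun i hi => by rw [if_pos (mem_range.1 hi)]

lemma t_add_lt {C : Chain} {J i k : ℕ} (hi : i < C.p J) (hk : k < C.H J) :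
    C.t J i + k < C.H (J + 1) := by
  rw [C.H_succ, Chain.t]
  have h1 : (i + 1) * C.B J ≤ C.p J * C.B J := Nat.mul_le_mul_right _ hi
  have h2 := C.trail J i
  rw [Nat.succ_mul] at h1
  omega

lemma t_add_inj {C : Chain} {J i k i' k' : ℕ} (hk : k < C.H J) (hk' : k' < C.H J)
    (h : C.t J i + k = C.t J i' + k') : i = i' ∧ k = k' := by
  have h1 := C.trail J i
  have h2 := C.trail J i'
  simp only [Chain.t] at h
  rcases lt_trichotomy i i' with hii | hii | hii
  · have : (i + 1) * C.B J ≤ i' * C.B J := Nat.mul_le_mul_right _ hii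
    rw [Nat.succ_mul] at this
    omega
  · subst hii; exact ⟨rfl, by omega⟩
  · have : (i' + 1) * C.B J ≤ i * C.B J := Nat.mul_le_mul_right _ hii
    rw [Nat.succ_mul] at this
    omega

lemma up_apply {C : Chain} {J i k : ℕ} (a : ℕ → ℂ) (hi : i < C.p J) (hk : k < C.H J) :
    up C J a (C.t J i + k) = a k := by
  rw [up, Finset.sum_eq_single i, Finset.sum_eq_single k, if_pos rfl]
  · intro k' hk' hne
    rw [if_neg fun h => hne (by omega)]
  · exact fun h => absurd (mem_range.2 hk) h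
  · intro i' _ hne
    exact Finset.sum_eq_zero fun k' hk' =>
      if_neg fun h => hne (t_add_inj (mem_range.1 hk') hk h).1
  · exact fun h => absurd (mem_range.2 hi) h

lemma tp_up (C : Chain) (J : ℕ) (a : ℕ → ℂ) (ξ : ℝ) :
    tp (up C J a) (C.H (J + 1)) ξ = (Real.sqrt (C.p J) : ℂ) * C.P J ξ * tp a (C.H J) ξ := by
  have hp : (0 : ℝ) < Real.sqrt (C.p J) := Real.sqrt_pos.2 (by exact_mod_cast C.p_pos J)
  rw [Chain.P, stageP, ← mul_assoc, ← Complex.ofReal_mul, mul_inv_cancel₀ hp.ne',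
    Complex.ofReal_one, one_mul]
  simp only [tp, up, Finset.sum_mul]
  rw [Finset.sum_comm]
  refine sum_congr rfl fun i hi => ?_
  rw [Finset.mul_sum, Finset.sum_comm]
  refine sum_congr rfl fun k hk => ?_
  rw [Finset.sum_eq_single (C.t J i + k)]
  · rw [if_pos rfl, Chain.t]
    push_cast
    rw [add_mul, ex_add]
    ring
  · intro m _ hne
    rw [if_neg (Ne.symm hne), zero_mul]
  · exact fun h => absurd (mem_range.2 (t_add_lt (mem_range.1 hi) (mem_range.1 hk))) h

end Vale.Agent.P130.Simple.Spectral
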