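import Vale.Agent.P130.Simple.Spectral.Base

/-!
# P130: the circle side of the spectral module
-/

open Finset MeasureTheory Filter
open scoped ComplexConjugate Topology

namespace Vale.Agent.P130.Simple.Spectral

open Vale.Agent.P110.UF (ex)

variable (C : Chain)

/-- Refinement through `d` stages. -/
def upN (k : ℕ) : ℕ → (ℕ → ℂ) → ℕ → ℂ
  | 0, a => a
  | d + 1, a => up C (k + d) (upN k d a)

/-- The product of the stage polynomials from `k` on. -/
noncomputable def prodP (k d : ℕ) (ξ : ℝ) : ℂ := ∏ i ∈ range d, C.P (k + i) ξ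

/-- The number of copies of stage `k` in stage `k + d`. -/
noncomputable def copies (k d : ℕ) : ℝ := ∏ i ∈ range d, (C.p (k + i) : ℝ)

lemma copies_pos (k d : ℕ) : 0 < copies C k d :=
  prod_pos fun i _ => by exact_mod_cast C.p_pos (k + i)

lemma continuous_prodP (k d : ℕ) : Continuous (prodP C k d) :=
  continuous_finsetProd _ fun i _ => continuous_P C (k + i)

lemma sum_norm_up (J : ℕ) (a : ℕ → ℂ) :
    ∑ m ∈ range (C.H (J + 1)), ‖up C J a m‖ ^ 2 = C.p J * ∑ k ∈ range (C.H J), ‖a k‖ ^ 2 := by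
  classical
  set S := (range (C.p J) ×ˢ range (C.H J)).image fun q : ℕ × ℕ => C.t J q.1 + q.2 with hS
  have hsub : S ⊆ range (C.H (J + 1)) := by
    intro m hm
    obtain ⟨q, hq, rfl⟩ := mem_image.1 hm
    obtain ⟨h1, h2⟩ := mem_product.1 hq
    exact mem_range.2 (t_add_lt (mem_range.1 h1) (mem_range.1 h2))
  have h0 : ∀ m ∈ range (C.H (J + 1)), m ∉ S → ‖up C J a m‖ ^ 2 = 0 := by
    intro m _ hm
    have : up C J a m = 0 := sum_eq_zero fun i hi => sum_eq_zero fun k hk =>
      if_neg fun h => hm (mem_image.2 ⟨(i, k), mem_product.2 ⟨hi, hk⟩, h⟩)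
    simp [this]
  rw [← sum_subset hsub h0, hS, sum_image, sum_product]
  · have : ∀ i ∈ range (C.p J), ∑ k ∈ range (C.H J), ‖up C J a (C.t J i + k)‖ ^ 2 =
        ∑ k ∈ range (C.H J), ‖a k‖ ^ 2 := fun i hi => sum_congr rfl fun k hk => by
      rw [up_apply a (mem_range.1 hi) (mem_range.1 hk)]
    rw [sum_congr rfl this, sum_const, card_range, nsmul_eq_mul]
  · intro q hq q' hq' h
    simp only [coe_product, Set.mem_prod, coe_range, Set.mem_Iio] at hq hq'
    obtain ⟨h1, h2⟩ := t_add_inj hq.2 hq'.2 h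
    exact Prod.ext h1 h2

lemma sum_norm_upN (k d : ℕ) (a : ℕ → ℂ) :
    ∑ m ∈ range (C.H (k + d)), ‖upN C k d a m‖ ^ 2 =
      copies C k d * ∑ m ∈ range (C.H k), ‖a m‖ ^ 2 := by
  induction d with
  | zero => simp [upN, copies]
  | succ d ih =>
    rw [show k + (d + 1) = (k + d) + 1 from rfl, upN, sum_norm_up, ih, copies, copies,
      prod_range_succ]
    ring

lemma tp_upN (k d : ℕ) (a : ℕ → ℂ) (ξ : ℝ) :
    tp (upN C k d a) (C.H (k + d)) ξ =
      (Real.sqrt (copies C k d) : ℂ) * prodP C k d ξ * tp a (C.H k) ξ := by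
  induction d with
  | zero => simp [upN, copies, prodP]
  | succ d ih =>
    rw [show k + (d + 1) = (k + d) + 1 from rfl, upN, tp_up, ih]
    have : copies C k (d + 1) = C.p (k + d) * copies C k d := by
      rw [copies, copies, prod_range_succ]; ring
    rw [this, Real.sqrt_mul (Nat.cast_nonneg _), prodP, prodP, prod_range_succ]
    push_cast
    ring

/-- The exact norm of a step polynomial times the product of stages. -/
lemma integral_tp_prodP (k d : ℕ) (a : ℕ → ℂ) :
    ∫ ξ, ‖tp a (C.H k) ξ * prodP C k d ξ‖ ^ 2 ∂cm = ∑ m ∈ range (C.H k), ‖a m‖ ^ 2 := by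
  have h := parseval (upN C k d a) (C.H (k + d))
  rw [sum_norm_upN] at h
  simp only [tp_upN, norm_mul, mul_pow, Complex.norm_real, Real.norm_eq_abs, sq_abs,
    Real.sq_sqrt (copies_pos C k d).le, mul_assoc, integral_const_mul] at h
  rw [← mul_left_cancel₀ (copies_pos C k d).ne' h]
  exact integral_congr_ae (Eventually.of_forall fun ξ => by
    simp only [norm_mul, mul_pow]; ring)

lemma one_le_H : ∀ J, 1 ≤ C.H J
  | 0 => by rw [C.H_zero]
  | J + 1 => by
    rw [C.H_succ]
    exact Nat.mul_pos (C.p_pos J) (by have := C.lead J 0; have := C.trail J 0; omega)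

/-- The approximants. -/
noncomputable def appr (k d : ℕ) (ξ : ℝ) : ℝ := ‖(ex ξ - 1) * prodP C k d ξ‖

lemma continuous_appr (k d : ℕ) : Continuous (appr C k d) :=
  ((continuous_ex.sub continuous_const).mul (continuous_prodP C k d)).norm

lemma memLp_of_bound {f : ℝ → ℝ} (hf : Continuous f) : MemLp f 2 cm := by
  obtain ⟨M, hM⟩ := (isCompact_Icc (a := (0 : ℝ)) (b := 1)).exists_bound_of_continuousOn
    hf.continuousOn
  exact MemLp.of_bound hf.aestronglyMeasurable M (by
    rw [cm]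
    filter_upwards [ae_restrict_mem measurableSet_Ioc] with x hx
    exact hM x (Set.Ioc_subset_Icc_self hx))

/-- The approximants in `L²`. -/
noncomputable def apprLp (k d : ℕ) : Lp ℝ 2 cm :=
  (memLp_of_bound (continuous_appr C k d)).toLp (appr C k d)

lemma norm_sq_eq_integral (f : Lp ℝ 2 cm) : ‖f‖ ^ 2 = ∫ ξ, (f ξ) ^ 2 ∂cm := by
  rw [← real_inner_self_eq_norm_sq, L2.inner_def]
  exact integral_congr_ae (Eventually.of_forall fun x => by simp [pow_two])

lemma dist_sq_eq (f g : Lp ℝ 2 cm) {u v : ℝ → ℝ} (hu : f =ᵐ[cm] u) (hv : g =ᵐ[cm] v) :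
    dist f g ^ 2 = ∫ ξ, (u ξ - v ξ) ^ 2 ∂cm := by
  rw [dist_eq_norm, norm_sq_eq_integral]
  refine integral_congr_ae ?_
  filter_upwards [Lp.coeFn_sub f g, hu, hv] with x h1 h2 h3
  rw [h1, Pi.sub_apply, h2, h3]

lemma dist_apprLp (k d : ℕ) :
    dist (apprLp C k d) (apprLp C k (d + 1)) ≤ (1 / 2 : ℝ) ^ k * (1 / 2) ^ d := by
  have hpow : ((1 / 2 : ℝ) ^ k * (1 / 2) ^ d) ^ 2 = (1 / 4) ^ (k + d) := by
    rw [← pow_add, ← pow_mul, mul_comm, pow_mul]; norm_num
  refine (pow_le_pow_iff_left₀ dist_nonneg (by positivity) two_ne_zero).1 ?_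
  rw [hpow, dist_sq_eq (apprLp C k d) (apprLp C k (d + 1))
    (MemLp.coeFn_toLp (memLp_of_bound (continuous_appr C k d)))
    (MemLp.coeFn_toLp (memLp_of_bound (continuous_appr C k (d + 1))))]
  set one : ℕ → ℂ := fun m => if m = 0 then 1 else 0
  set g : ℕ → ℂ := fun m => ((Real.sqrt (copies C k d))⁻¹ : ℂ) * upN C k d one m with hg
  have hone : ∀ ξ, tp one (C.H k) ξ = 1 := fun ξ => by
    rw [tp, sum_eq_single 0]
    · simp [one, ex_zero]
    · exact fun m _ hm => by simp [one, hm]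
    · exact fun h => absurd (mem_range.2 (one_le_H C k)) h
  have hone2 : ∑ m ∈ range (C.H k), ‖one m‖ ^ 2 = 1 := by
    rw [sum_eq_single 0]
    · simp [one]
    · exact fun m _ hm => by simp [one, hm]
    · exact fun h => absurd (mem_range.2 (one_le_H C k)) h
  have hs : Real.sqrt (copies C k d) ≠ 0 := (Real.sqrt_pos.2 (copies_pos C k d)).ne'
  have htp : ∀ ξ, tp g (C.H (k + d)) ξ = prodP C k d ξ := fun ξ => by
    have h := tp_upN C k d one ξ
    rw [hone, mul_one] at h
    simp only [tp, hg, mul_assoc, ← Finset.mul_sum] at h ⊢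
    rw [h, ← mul_assoc, inv_mul_cancel₀ (by exact_mod_cast hs), one_mul]
  have hsum : ∑ m ∈ range (C.H (k + d)), ‖g m‖ ^ 2 = 1 := by
    simp only [hg, norm_mul, mul_pow, ← Finset.mul_sum, sum_norm_upN, hone2, norm_inv,
      Complex.norm_real, Real.norm_eq_abs, inv_pow, sq_abs, Real.sq_sqrt (copies_pos C k d).le,
      mul_one, inv_mul_cancel₀ (copies_pos C k d).ne']
  have hflat := C.flat (k + d) (C.H (k + d)) le_rfl g
  rw [hsum, mul_one, intervalIntegral.integral_of_le zero_le_one] at hflat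
  refine le_trans (le_of_eq ?_) hflat
  refine integral_congr_ae (Eventually.of_forall fun ξ => ?_)
  simp only [appr, prodP, prod_range_succ, htp, norm_mul, Chain.P]
  ring

lemma cauchy_apprLp (k : ℕ) : CauchySeq (apprLp C k) :=
  cauchySeq_of_le_geometric (1 / 2) ((1 / 2 : ℝ) ^ k) (by norm_num) (dist_apprLp C k)

/-- The limit of the approximants. -/
noncomputable def lim (k : ℕ) : Lp ℝ 2 cm := limUnder atTop (apprLp C k)

lemma tendsto_lim (k : ℕ) : Tendsto (apprLp C k) atTop (𝓝 (lim C k)) :=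
  (cauchy_apprLp C k).tendsto_limUnder

lemma dist_lim (k : ℕ) : dist (apprLp C k 0) (lim C k) ≤ 2 * (1 / 2 : ℝ) ^ k := by
  have h := dist_le_of_le_geometric_of_tendsto₀ (1 / 2) ((1 / 2 : ℝ) ^ k) (by norm_num)
    (dist_apprLp C k) (tendsto_lim C k)
  rw [div_eq_mul_inv] at h
  norm_num at h ⊢
  linarith

/-- Multiplication by a bounded continuous function is Lipschitz on `L²`. -/
lemma tendsto_mul {w : ℝ → ℝ} (hw : Continuous w) {G : ℕ → Lp ℝ 2 cm} {F : Lp ℝ 2 cm}
    (hG : Tendsto G atTop (𝓝 F)) {G' : ℕ → Lp ℝ 2 cm}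
    (hG' : ∀ d, G' d =ᵐ[cm] fun ξ => w ξ * G d ξ) :
    ∃ F' : Lp ℝ 2 cm, Tendsto G' atTop (𝓝 F') ∧ F' =ᵐ[cm] fun ξ => w ξ * F ξ := by
  obtain ⟨M, hM⟩ := (isCompact_Icc (a := (0 : ℝ)) (b := 1)).exists_bound_of_continuousOn
    hw.continuousOn
  have hae : ∀ᵐ ξ ∂cm, ‖w ξ‖ ≤ M := by
    rw [cm]
    filter_upwards [ae_restrict_mem measurableSet_Ioc] with x hx
    exact hM x (Set.Ioc_subset_Icc_self hx)
  have hF : MemLp (fun ξ => w ξ * F ξ) 2 cm :=
    (Lp.memLp F).of_le_mul (hw.aestronglyMeasurable.mul (Lp.aestronglyMeasurable F))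
      (hae.mono fun ξ hξ => by rw [norm_mul]; exact mul_le_mul_of_nonneg_right hξ (norm_nonneg _))
  refine ⟨hF.toLp _, ?_, hF.coeFn_toLp⟩
  rw [tendsto_iff_norm_sub_tendsto_zero]
  refine squeeze_zero (fun d => norm_nonneg _) (fun d => ?_)
    (by simpa using (tendsto_iff_norm_sub_tendsto_zero.1 hG).const_mul M)
  refine Lp.norm_le_mul_norm_of_ae_le_mul ?_
  filter_upwards [Lp.coeFn_sub (G' d) (hF.toLp _), Lp.coeFn_sub (G d) F, hG' d,
    hF.coeFn_toLp, hae] with ξ h1 h2 h3 h4 h5
  rw [h1, h2, Pi.sub_apply, Pi.sub_apply, h3, h4, ← mul_sub, norm_mul]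
  exact mul_le_mul_of_nonneg_right h5 (norm_nonneg _)

/-- A representative of the limit. -/
noncomputable def limFun (k : ℕ) : ℝ → ℝ := lim C k

lemma measurable_limFun (k : ℕ) : Measurable (limFun C k) :=
  (Lp.stronglyMeasurable (lim C k)).measurable

lemma limFun_rec (k : ℕ) :
    limFun C k =ᵐ[cm] fun ξ => ‖C.P k ξ‖ * limFun C (k + 1) ξ := by
  obtain ⟨F', hF', hF''⟩ := tendsto_mul (continuous_P C k).norm (tendsto_lim C (k + 1))
    (G' := fun d => apprLp C k (d + 1)) fun d => by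
      filter_upwards [MemLp.coeFn_toLp (memLp_of_bound (continuous_appr C k (d + 1))),
        MemLp.coeFn_toLp (memLp_of_bound (continuous_appr C (k + 1) d))] with ξ h1 h2
      simp only [apprLp, h1, h2, appr, prodP, prod_range_succ', norm_mul, add_zero]
      rw [show (fun i => C.P (k + (i + 1)) ξ) = fun i => C.P (k + 1 + i) ξ from
        funext fun i => by rw [add_assoc, add_comm 1 i]]
      ring
  have heq : F' = lim C k :=
    tendsto_nhds_unique hF' ((tendsto_lim C k).comp (tendsto_add_atTop_nat 1))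
  rw [limFun, ← heq]
  exact hF''

/-- The unit complex number of `z`. -/
noncomputable def unit' (z : ℂ) : ℂ := if z = 0 then 1 else z / ‖z‖

lemma norm_unit' (z : ℂ) : ‖unit' z‖ = 1 := by
  rw [unit']; split_ifs with h
  · simp
  · rw [norm_div, Complex.norm_real, norm_norm, div_self (norm_ne_zero_iff.2 h)]

lemma mul_conj_unit' (z : ℂ) : z * conj (unit' z) = (‖z‖ : ℂ) := by
  rw [unit']; split_ifs with h
  · simp [h]
  · have hn : (‖z‖ : ℂ) ≠ 0 := by exact_mod_cast norm_ne_zero_iff.2 h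
    rw [map_div₀, Complex.conj_ofReal, ← mul_div_assoc, Complex.mul_conj', div_eq_iff hn, sq]

/-- The phases. -/
noncomputable def phase : ℕ → ℝ → ℂ
  | 0, _ => 1
  | k + 1, ξ => phase k ξ * conj (unit' (C.P k ξ))

lemma norm_phase (k : ℕ) (ξ : ℝ) : ‖phase C k ξ‖ = 1 := by
  induction k with
  | zero => simp [phase]
  | succ k ih => rw [phase, norm_mul, ih, RCLike.norm_conj, norm_unit', one_mul]

lemma measurable_phase (k : ℕ) : Measurable (phase C k) := by
  induction k with
  | zero => exact measurable_const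
  | succ k ih =>
    have hu : Measurable unit' := by
      unfold unit'
      exact Measurable.ite (measurableSet_singleton 0) measurable_const
        (measurable_id.div (Complex.continuous_ofReal.comp continuous_norm).measurable)
    exact ih.mul (Complex.continuous_conj.measurable.comp (hu.comp (continuous_P C k).measurable))

/-- The function of the circle side. -/
noncomputable def psiF (k : ℕ) (ξ : ℝ) : ℂ := phase C k ξ * (limFun C k ξ : ℂ)

lemma norm_psiF (k : ℕ) (ξ : ℝ) : ‖psiF C k ξ‖ = |limFun C k ξ| := by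
  rw [psiF, norm_mul, norm_phase, one_mul, Complex.norm_real, Real.norm_eq_abs]

lemma countable_zero_P (k : ℕ) : {ξ : ℝ | C.P k ξ = 0}.Countable := by
  classical
  set R : Polynomial ℂ := ∑ i ∈ range (C.p k), Polynomial.X ^ (i * C.B k + C.off k i) with hR
  have hR0 : R ≠ 0 := by
    intro h
    have := congrArg (Polynomial.eval 1) h
    simp [hR, Polynomial.eval_finsetSum, (C.p_pos k).ne'] at this
  have hsub : {ξ : ℝ | C.P k ξ = 0} ⊆ ⋃ z ∈ {z | R.IsRoot z}, {ξ : ℝ | ex ξ = z} := by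
    intro ξ hξ
    refine Set.mem_biUnion (x := ex ξ) ?_ rfl
    have hsum : ∑ i ∈ range (C.p k), ex (((i * C.B k + C.off k i : ℕ) : ℝ) * ξ) = 0 := by
      have hp : ((Real.sqrt (C.p k))⁻¹ : ℝ) ≠ 0 :=
        inv_ne_zero (Real.sqrt_pos.2 (by exact_mod_cast C.p_pos k)).ne'
      simpa [Chain.P, stageP, hp, (C.p_pos k).ne'] using hξ
    rw [Set.mem_ofPred_eq, Polynomial.IsRoot, hR, Polynomial.eval_finsetSum, ← hsum]
    refine sum_congr rfl fun i _ => ?_
    rw [Polynomial.eval_pow, Polynomial.eval_X, ex, ex, ← Complex.exp_nat_mul]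
    congr 1
    push_cast
    ring
  refine ((Polynomial.finite_setOfPred_isRoot hR0).countable.biUnion fun z _ => ?_).mono hsub
  rcases Set.eq_empty_or_nonempty {ξ : ℝ | ex ξ = z} with h | ⟨η, hη⟩
  · rw [h]; exact Set.countable_empty
  refine (Set.countable_range fun n : ℤ => η + (n : ℝ)).mono fun ξ hξ => ?_
  have h : ex ξ = ex η := (show ex ξ = z from hξ).trans (show ex η = z from hη).symm
  rw [ex, ex, Complex.exp_eq_exp_iff_exists_int] at h
  obtain ⟨n, hn⟩ := h
  refine ⟨n, ?_⟩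
  have : ((ξ : ℂ)) = (η : ℂ) + (n : ℂ) := by
    have hpi : (2 * (Real.pi : ℂ) * Complex.I) ≠ 0 := by simp [Real.pi_ne_zero]
    apply mul_left_cancel₀ hpi
    push_cast at hn
    linear_combination hn
  have h' : ξ = η + (n : ℝ) := by exact_mod_cast this
  exact h'.symm

lemma ae_P_ne (k : ℕ) : ∀ᵐ ξ ∂cm, C.P k ξ ≠ 0 := by
  rw [cm]
  exact ae_restrict_of_ae ((countable_zero_P C k).ae_notMem volume)

lemma ae_ex_ne : ∀ᵐ ξ ∂cm, ex ξ - 1 ≠ 0 := by
  rw [cm, ae_restrict_iff' measurableSet_Ioc]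
  filter_upwards [(Set.countable_singleton (1 : ℝ)).ae_notMem volume] with ξ h1 hξ h
  rw [sub_eq_zero, ex, Complex.exp_eq_one_iff] at h
  obtain ⟨n, hn⟩ := h
  have : ξ = n := by
    have hpi : (2 * (Real.pi : ℂ) * Complex.I) ≠ 0 := by simp [Real.pi_ne_zero]
    have : (ξ : ℂ) = (n : ℂ) := by
      apply mul_left_cancel₀ hpi
      push_cast at hn
      linear_combination hn
    exact_mod_cast this
  subst this
  obtain ⟨h0, h2⟩ := hξ
  have hn0 : (0 : ℤ) < n := by exact_mod_cast h0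
  have hn1 : n ≤ 1 := by exact_mod_cast h2
  exact h1 (show ((n : ℝ)) = 1 by exact_mod_cast (by omega : n = 1))

lemma limFun_ne_zero (k : ℕ) : ∀ᵐ ξ ∂cm, limFun C k ξ ≠ 0 := by
  set A := {ξ | limFun C k ξ = 0} with hA
  have hAm : MeasurableSet A := measurableSet_eq_fun (measurable_limFun C k) measurable_const
  have hsub : ∀ d, ∀ᵐ ξ ∂cm, ξ ∈ A → limFun C (k + d) ξ = 0 := by
    intro d
    induction d with
    | zero => exact Eventually.of_forall fun ξ h => h
    | succ d ih =>
      filter_upwards [ih, limFun_rec C (k + d), ae_P_ne C (k + d)] with ξ h1 h2 h3 hξ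
      have h := h2.symm.trans (h1 hξ)
      exact (mul_eq_zero.1 h).resolve_left (norm_ne_zero_iff.2 h3)
  have hle : ∀ d, ∫ ξ in A, ‖ex ξ - 1‖ ^ 2 ∂cm ≤ 4 * (1 / 4 : ℝ) ^ d := by
    intro d
    have h0 := MemLp.coeFn_toLp (memLp_of_bound (continuous_appr C (k + d) 0))
    have hd := dist_sq_eq (apprLp C (k + d) 0) (lim C (k + d)) h0 (ae_eq_refl _)
    have hint : Integrable
        (fun ξ => (appr C (k + d) 0 ξ - lim C (k + d) ξ) ^ 2) cm :=
      ((memLp_of_bound (continuous_appr C (k + d) 0)).sub (Lp.memLp _)).integrable_sq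
    calc ∫ ξ in A, ‖ex ξ - 1‖ ^ 2 ∂cm
        = ∫ ξ in A, (appr C (k + d) 0 ξ - lim C (k + d) ξ) ^ 2 ∂cm := by
          refine setIntegral_congr_ae hAm ?_
          filter_upwards [hsub d] with ξ h hξ
          have := h hξ
          rw [limFun] at this
          simp [appr, prodP, this]
      _ ≤ ∫ ξ, (appr C (k + d) 0 ξ - lim C (k + d) ξ) ^ 2 ∂cm :=
          setIntegral_le_integral hint (Eventually.of_forall fun ξ => sq_nonneg _)
      _ = dist (apprLp C (k + d) 0) (lim C (k + d)) ^ 2 := hd.symm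
      _ ≤ (2 * (1 / 2 : ℝ) ^ (k + d)) ^ 2 := pow_le_pow_left₀ dist_nonneg (dist_lim C (k + d)) 2
      _ ≤ 4 * (1 / 4 : ℝ) ^ d := by
          rw [mul_pow, ← pow_mul, mul_comm (k + d), pow_mul]
          norm_num
          rw [pow_add]
          exact mul_le_of_le_one_left (by positivity) (pow_le_one₀ (by norm_num) (by norm_num))
  have hint : IntegrableOn (fun ξ => ‖ex ξ - 1‖ ^ 2) A cm := by
    refine (Integrable.mono' (integrable_const (4 : ℝ)) (by fun_prop)
      (Eventually.of_forall fun ξ => ?_)).integrableOn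
    rw [norm_pow, norm_norm]
    have h1 : ‖ex ξ - 1‖ ≤ 2 := (norm_sub_le _ _).trans (by rw [norm_ex, norm_one]; norm_num)
    nlinarith [norm_nonneg (ex ξ - 1)]
  have h0 : ∫ ξ in A, ‖ex ξ - 1‖ ^ 2 ∂cm = 0 :=
    le_antisymm (ge_of_tendsto' (by
      simpa using (tendsto_pow_atTop_nhds_zero_of_lt_one (by norm_num : (0:ℝ) ≤ 1 / 4)
        (by norm_num)).const_mul 4) hle) (setIntegral_nonneg hAm fun ξ _ => by positivity)
  have h1 := (setIntegral_eq_zero_iff_of_nonneg_ae (Eventually.of_forall fun ξ => by positivity)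
    hint).1 h0
  filter_upwards [ae_imp_of_ae_restrict h1, ae_ex_ne] with ξ h h2 hξ
  exact h2 (norm_eq_zero.1 (eq_zero_of_pow_eq_zero (h hξ)))

lemma psiF_norm (k n : ℕ) (hn : n + 1 ≤ C.H k) (g : ℕ → ℂ) :
    ∫ ξ, ‖tp g n ξ * psiF C k ξ‖ ^ 2 ∂cm = ∑ m ∈ range (n + 1), ‖dif g n m‖ ^ 2 := by
  have hc : Continuous fun ξ => ‖tp g n ξ‖ := (continuous_tp g n).norm
  have hG : ∀ d, MemLp (fun ξ => ‖tp g n ξ‖ * appr C k d ξ) 2 cm := fun d =>
    memLp_of_bound (hc.mul (continuous_appr C k d))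
  obtain ⟨F', hF', hF''⟩ := tendsto_mul hc (tendsto_lim C k)
    (G' := fun d => (hG d).toLp _) fun d => by
      filter_upwards [(hG d).coeFn_toLp,
        MemLp.coeFn_toLp (memLp_of_bound (continuous_appr C k d))] with ξ h1 h2
      simp only [apprLp, h1, h2]
  have hval : ∀ d, ‖(hG d).toLp _‖ ^ 2 = ∑ m ∈ range (n + 1), ‖dif g n m‖ ^ 2 := by
    intro d
    have hz : ∀ m ∈ range (C.H k), m ∉ range (n + 1) → dif g n m = 0 := by
      intro m _ hm
      rw [mem_range] at hm
      rw [dif, if_neg (by omega), if_neg (by omega), sub_self]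
    have hsub : range (n + 1) ⊆ range (C.H k) := range_mono hn
    have htp : ∀ ξ, tp (dif g n) (C.H k) ξ = (ex ξ - 1) * tp g n ξ := fun ξ => by
      rw [← tp_dif]
      exact (sum_subset hsub fun m hm hm' => by rw [hz m hm hm', zero_mul]).symm
    rw [sum_subset hsub fun m hm hm' => by simp [hz m hm hm'],
      ← integral_tp_prodP C k d (dif g n), norm_sq_eq_integral]
    refine integral_congr_ae ?_
    filter_upwards [(hG d).coeFn_toLp] with ξ h1
    rw [h1, htp, appr]
    simp only [norm_mul]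
    ring
  calc ∫ ξ, ‖tp g n ξ * psiF C k ξ‖ ^ 2 ∂cm = ‖F'‖ ^ 2 := by
        rw [norm_sq_eq_integral]
        refine integral_congr_ae ?_
        filter_upwards [hF''] with ξ h
        rw [h, norm_mul, norm_psiF, mul_pow, sq_abs, mul_pow, limFun]
    _ = _ := tendsto_nhds_unique ((continuous_norm.tendsto F').comp hF' |>.pow 2)
        (tendsto_const_nhds.congr fun d => (hval d).symm)

theorem circleStmt : CircleStmt := fun C => ⟨{
  psi := psiF C
  meas := fun k => (measurable_phase C k).mul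
    (Complex.measurable_ofReal.comp (measurable_limFun C k))
  memLp := fun k => by
    refine (Lp.memLp (lim C k)).of_le ((measurable_phase C k).mul
      (Complex.measurable_ofReal.comp (measurable_limFun C k))).aestronglyMeasurable
      (Eventually.of_forall fun ξ => ?_)
    exact (norm_psiF C k ξ).le
  refine_eq := fun k => by
    filter_upwards [limFun_rec C k] with ξ h
    simp only [psiF, phase]
    rw [h]
    push_cast
    rw [← mul_conj_unit' (C.P k ξ)]
    ring
  norm := fun k n hn g => psiF_norm C k n hn g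
  ne_zero := fun k => by
    filter_upwards [limFun_ne_zero C k] with ξ h hz
    have := congrArg norm hz
    rw [norm_psiF, norm_zero, abs_eq_zero] at this
    exact h this }⟩

end Vale.Agent.P130.Simple.Spectral
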