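import Vale.Agent.P130.Simple.Spectral.Base

/-!
# P130: an integrable function on a period with vanishing Fourier coefficients vanishes
-/

open Finset MeasureTheory Filter Topology
open scoped ComplexConjugate

namespace Vale.Agent.P130.Simple.Spectral

open Vale.Agent.P110.UF (ex)

lemma mp_circle : MeasurePreserving (fun x : ℝ => (x : UnitAddCircle)) cm volume := by
  simpa [cm] using UnitAddCircle.measurePreserving_mk 0

lemma ae_zero_of_fourier {F : UnitAddCircle → ℂ} (hF : Integrable F volume)
    (h : ∀ j : ℤ, ∫ x, fourier j x * F x = 0) : F =ᵐ[volume] 0 := by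
  have hi : ∀ φ : C(UnitAddCircle, ℂ), Integrable (fun x => φ x * F x) volume := fun φ =>
    hF.bdd_mul (map_continuous φ).aestronglyMeasurable
      (ae_of_all _ fun x => φ.norm_coe_le_norm x)
  set Λ : C(UnitAddCircle, ℂ) →L[ℂ] ℂ := LinearMap.mkContinuous
    { toFun := fun φ => ∫ x, φ x * F x
      map_add' := fun φ ψ => by
        simp only [ContinuousMap.add_apply, add_mul]
        exact integral_add (hi φ) (hi ψ)
      map_smul' := fun c φ => by
        simp only [ContinuousMap.smul_apply, smul_eq_mul, mul_assoc, RingHom.id_apply]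
        exact integral_const_mul c _ }
    (∫ x, ‖F x‖) (fun φ => by
      refine (norm_integral_le_integral_norm _).trans ?_
      rw [mul_comm, ← integral_const_mul]
      refine integral_mono (hi φ).norm (hF.norm.const_mul _) fun x => ?_
      simp only [norm_mul]
      exact mul_le_mul_of_nonneg_right (φ.norm_coe_le_norm x) (norm_nonneg _))
  have hall : ∀ φ : C(UnitAddCircle, ℂ), ∫ x, φ x * F x = 0 := by
    intro φ
    have hle : (Submodule.span ℂ (Set.range (@fourier (1 : ℝ)))).topologicalClosure ≤
        LinearMap.ker (Λ : C(UnitAddCircle, ℂ) →ₗ[ℂ] ℂ) := by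
      refine Submodule.topologicalClosure_minimal _ ?_ Λ.isClosed_ker
      rw [Submodule.span_le]
      rintro _ ⟨j, rfl⟩
      exact h j
    rw [span_fourier_closure_eq_top] at hle
    exact hle Submodule.mem_top
  apply ae_eq_zero_of_forall_setIntegral_isClosed_eq_zero hF
  intro s hs
  have hpos : ∀ n : ℕ, (0 : ℝ) < 1 / ((n : ℝ) + 1) := fun n => by positivity
  have hind := thickenedIndicator_tendsto_indicator_closure hpos
    tendsto_one_div_add_atTop_nhds_zero_nat s
  rw [hs.closure_eq, tendsto_pi_nhds] at hind
  have hzero : ∀ n : ℕ, ∫ x, (((thickenedIndicator (hpos n) s x : NNReal) : ℝ) : ℂ) * F x = 0 :=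
    fun n => hall ⟨fun x => (((thickenedIndicator (hpos n) s x : NNReal) : ℝ) : ℂ), by fun_prop⟩
  have hlim : Tendsto
      (fun n : ℕ => ∫ x, (((thickenedIndicator (hpos n) s x : NNReal) : ℝ) : ℂ) * F x)
      atTop (𝓝 (∫ x in s, F x)) := by
    rw [← integral_indicator hs.measurableSet]
    refine tendsto_integral_of_dominated_convergence (fun x => ‖F x‖) (fun n =>
      (Continuous.aestronglyMeasurable (by fun_prop)).mul hF.aestronglyMeasurable) hF.norm
      (fun n => ae_of_all _ fun x => ?_) (ae_of_all _ fun x => ?_)
    · rw [norm_mul]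
      refine mul_le_of_le_one_left (norm_nonneg _) ?_
      rw [Complex.norm_real, NNReal.norm_eq]
      exact_mod_cast thickenedIndicator_le_one (hpos n) s x
    · have hx := (((Complex.continuous_ofReal.comp NNReal.continuous_coe).tendsto _).comp
        (hind x)).mul_const (F x)
      simp only [Function.comp_apply] at hx
      convert hx using 2
      by_cases hxs : x ∈ s <;> simp [hxs]
  simp only [hzero] at hlim
  exact tendsto_nhds_unique hlim tendsto_const_nhds

theorem uniqueStmt : UniqueStmt := by
  intro F hF h
  obtain ⟨G, hGdef⟩ : ∃ G : UnitAddCircle → ℂ, G = AddCircle.liftIoc 1 0 F := ⟨_, rfl⟩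
  have hco : ∀ᵐ (x : ℝ) ∂cm, G ((x : ℝ) : UnitAddCircle) = F x := by
    rw [cm]
    filter_upwards [ae_restrict_mem measurableSet_Ioc] with x hx
    rw [hGdef]
    exact AddCircle.liftIoc_coe_apply (by simpa using hx)
  have hG : Integrable G volume := by
    have h1 : MemLp F 1 (volume.restrict (Set.Ioc (0 : ℝ) (0 + 1))) := by
      rw [zero_add]
      exact memLp_one_iff_integrable.2 hF
    rw [hGdef]
    exact memLp_one_iff_integrable.1 h1.memLp_liftIoc
  have hz := ae_zero_of_fourier hG fun j => by
    rw [← UnitAddCircle.integral_preimage 0, zero_add, ← h j]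
    refine integral_congr_ae ?_
    rw [← cm]
    filter_upwards [hco] with x hx
    rw [hx, fourier_coe_apply]
    congr 1
    simp only [ex]
    congr 1
    push_cast
    ring
  filter_upwards [hco, mp_circle.quasiMeasurePreserving.ae hz] with x h1 h2
  rw [← h1, h2]
  rfl

end Vale.Agent.P130.Simple.Spectral
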