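import Vale.Agent.P130.Simple.Spectral.Steps
import Vale.Agent.P130.Simple.Spectral.Unique

/-!
# P130: flat chains have simple Lebesgue spectrum

The closure of the graph of `step a ↦ img a` is the graph of an isometry of the mean zero space
onto `L²` of the circle, which carries composition with `T` to multiplication by `ex (-ξ)`.
-/

open Finset MeasureTheory Filter
open scoped ComplexConjugate InnerProductSpace

namespace Vale.Agent.P130.Simple.Spectral

open Vale.Agent.P110.UF (ex)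

variable {C : Chain} (Y : System C) (Z : Circle C)

lemma norm_sq_Lp {X : Type*} [MeasurableSpace X] {μ : Measure X} (f : Lp ℂ 2 μ) :
    ‖f‖ ^ 2 = ∫ x, ‖f x‖ ^ 2 ∂μ := by
  rw [@norm_sq_eq_re_inner ℂ, L2.inner_def, ← integral_re (L2.integrable_inner f f)]
  exact integral_congr_ae (ae_of_all _ fun x => (@norm_sq_eq_re_inner ℂ ℂ _ _ _ (f x)).symm)

lemma step_add (J : ℕ) (a b : ℕ → ℂ) (x : ℝ) :
    stepFun (Y.lev J) (C.H J) (a + b) x =
      stepFun (Y.lev J) (C.H J) a x + stepFun (Y.lev J) (C.H J) b x := by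
  rw [stepFun, stepFun, stepFun, ← sum_add_distrib]
  refine sum_congr rfl fun n _ => ?_
  by_cases h : x ∈ Y.lev J n <;> simp [h]

lemma step_smul (J : ℕ) (s : ℂ) (a : ℕ → ℂ) (x : ℝ) :
    stepFun (Y.lev J) (C.H J) (s • a) x = s * stepFun (Y.lev J) (C.H J) a x := by
  rw [stepFun, stepFun, mul_sum]
  refine sum_congr rfl fun n _ => ?_
  by_cases h : x ∈ Y.lev J n <;> simp [h]

lemma img_add (J : ℕ) (a b : ℕ → ℂ) (ξ : ℝ) :
    img Y Z J (a + b) ξ = img Y Z J a ξ + img Y Z J b ξ := by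
  simp only [img, tp, anti, Pi.add_apply, sum_add_distrib, neg_add, add_mul]
  ring

lemma img_smul (J : ℕ) (s : ℂ) (a : ℕ → ℂ) (ξ : ℝ) :
    img Y Z J (s • a) ξ = s * img Y Z J a ξ := by
  simp only [img, tp, anti, Pi.smul_apply, smul_eq_mul, ← mul_sum, ← mul_neg, mul_assoc]
  ring

lemma step_congr (J : ℕ) (a b : ℕ → ℂ) (h : ∀ n < C.H J, a n = b n) :
    stepFun (Y.lev J) (C.H J) a = stepFun (Y.lev J) (C.H J) b := by
  ext x
  exact sum_congr rfl fun n hn => by rw [h n (mem_range.1 hn)]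

lemma img_congr (J : ℕ) (a b : ℕ → ℂ) (h : ∀ n < C.H J, a n = b n) :
    img Y Z J a = img Y Z J b := by
  ext ξ
  simp only [img, tp]
  congr 2
  refine sum_congr rfl fun k hk => ?_
  rw [mem_range] at hk
  simp only [anti]
  rw [sum_congr rfl fun i hi => h i (by rw [mem_range] at hi; omega)]

lemma lift (J J' : ℕ) (h : J ≤ J') (a : ℕ → ℂ) (h0 : ∑ k ∈ range (C.H J), a k = 0) :
    ∃ a', ∑ k ∈ range (C.H J'), a' k = 0 ∧
      stepFun (Y.lev J') (C.H J') a' =ᵐ[Y.μ] stepFun (Y.lev J) (C.H J) a ∧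
      img Y Z J' a' =ᵐ[cm] img Y Z J a := by
  induction h with
  | refl => exact ⟨a, h0, EventuallyEq.rfl, EventuallyEq.rfl⟩
  | @step m _ ih =>
    obtain ⟨a', h1, h2, h3⟩ := ih
    exact ⟨up C m a', by rw [sum_up, h1, mul_zero], (step_up Y m a').trans h2,
      (img_up Y Z m a' h1).trans h3⟩

/-- The graph of the isometry on mean zero step functions. -/
def graph : Submodule ℂ (Lp ℂ 2 Y.μ × Lp ℂ 2 cm) where
  carrier := {x | ∃ J a, ∑ k ∈ range (C.H J), a k = 0 ∧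
    x.1 =ᵐ[Y.μ] stepFun (Y.lev J) (C.H J) a ∧ x.2 =ᵐ[cm] img Y Z J a}
  zero_mem' := ⟨0, 0, by simp, by
    refine (Lp.coeFn_zero _ _ _).trans (ae_of_all _ fun x => ?_)
    simp [stepFun], by
    refine (Lp.coeFn_zero _ _ _).trans (ae_of_all _ fun x => ?_)
    simp [img, tp, anti]⟩
  add_mem' := by
    rintro x y ⟨J, a, ha, hx1, hx2⟩ ⟨K, b, hb, hy1, hy2⟩
    obtain ⟨a', ha', hs, ht⟩ := lift Y Z J (max J K) (le_max_left _ _) a ha
    obtain ⟨b', hb', hu, hv⟩ := lift Y Z K (max J K) (le_max_right _ _) b hb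
    refine ⟨max J K, a' + b', ?_, ?_, ?_⟩
    · simp [sum_add_distrib, ha', hb']
    · filter_upwards [Lp.coeFn_add x.1 y.1, hx1, hy1, hs, hu] with p e1 e2 e3 e4 e5
      rw [Prod.fst_add, e1, Pi.add_apply, e2, e3, ← e4, ← e5, step_add]
    · filter_upwards [Lp.coeFn_add x.2 y.2, hx2, hy2, ht, hv] with p e1 e2 e3 e4 e5
      rw [Prod.snd_add, e1, Pi.add_apply, e2, e3, ← e4, ← e5, img_add]
  smul_mem' := by
    rintro s x ⟨J, a, ha, hx1, hx2⟩
    refine ⟨J, s • a, by simp [← mul_sum, ha], ?_, ?_⟩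
    · filter_upwards [Lp.coeFn_smul s x.1, hx1] with p e1 e2
      rw [Prod.smul_fst, e1, Pi.smul_apply, e2, step_smul, smul_eq_mul]
    · filter_upwards [Lp.coeFn_smul s x.2, hx2] with p e1 e2
      rw [Prod.smul_snd, e1, Pi.smul_apply, e2, img_smul, smul_eq_mul]

/-- The graph of the isometry of the mean zero space. -/
noncomputable def graphC : Submodule ℂ (Lp ℂ 2 Y.μ × Lp ℂ 2 cm) := (graph Y Z).topologicalClosure

lemma norm_graphC {x : Lp ℂ 2 Y.μ × Lp ℂ 2 cm} (hx : x ∈ graphC Y Z) : ‖x.1‖ = ‖x.2‖ := by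
  revert x
  have hcl : IsClosed {x : Lp ℂ 2 Y.μ × Lp ℂ 2 cm | ‖x.1‖ = ‖x.2‖} :=
    isClosed_eq continuous_fst.norm continuous_snd.norm
  intro x hx
  refine closure_minimal ?_ hcl hx
  rintro y ⟨J, a, ha, h1, h2⟩
  show ‖y.1‖ = ‖y.2‖
  rw [← sq_eq_sq₀ (norm_nonneg _) (norm_nonneg _), norm_sq_Lp, norm_sq_Lp,
    integral_congr_ae (h1.mono fun p hp => show ‖y.1 p‖ ^ 2 = _ by rw [hp]),
    integral_congr_ae (h2.mono fun p hp => show ‖y.2 p‖ ^ 2 = _ by rw [hp]),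
    norm_step, norm_img Y Z J a ha]

lemma inner_graphC {x y : Lp ℂ 2 Y.μ × Lp ℂ 2 cm} (hx : x ∈ graphC Y Z) (hy : y ∈ graphC Y Z) :
    ⟪x.1, y.1⟫_ℂ = ⟪x.2, y.2⟫_ℂ := by
  have e1 := norm_graphC Y Z (add_mem hx hy)
  have e2 := norm_graphC Y Z (sub_mem hx hy)
  have e3 := norm_graphC Y Z (sub_mem hx (Submodule.smul_mem _ Complex.I hy))
  have e4 := norm_graphC Y Z (add_mem hx (Submodule.smul_mem _ Complex.I hy))
  simp only [Prod.fst_add, Prod.snd_add, Prod.fst_sub, Prod.snd_sub, Prod.smul_fst,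
    Prod.smul_snd] at e1 e2 e3 e4
  simp only [inner_eq_sum_norm_sq_div_four, RCLike.I_to_complex, e1, e2, e3, e4]

lemma mp_zpow : ∀ n : ℤ, MeasurePreserving ((Y.T.toEquiv ^ n : Equiv.Perm ℝ)) Y.μ Y.μ := by
  intro n
  induction n with
  | zero => rw [zpow_zero, Equiv.Perm.coe_one]; exact MeasurePreserving.id _
  | succ k ih => rw [zpow_add_one, Equiv.Perm.coe_mul]; exact ih.comp Y.mp
  | pred k ih => rw [zpow_sub_one, Equiv.Perm.coe_mul]; exact ih.comp (Y.mp.symm Y.T)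

/-- Composition with `T ^ n`. -/
noncomputable def koop (n : ℤ) : Lp ℂ 2 Y.μ →ₗᵢ[ℂ] Lp ℂ 2 Y.μ :=
  Lp.compMeasurePreservingₗᵢ ℂ _ (mp_zpow Y n)

lemma koop_coe (n : ℤ) (g : Lp ℂ 2 Y.μ) :
    koop Y n g =ᵐ[Y.μ] fun x => g ((Y.T.toEquiv ^ n : Equiv.Perm ℝ) x) :=
  Lp.coeFn_compMeasurePreserving _ (mp_zpow Y n)

lemma koop_add (m n : ℤ) (g : Lp ℂ 2 Y.μ) : koop Y (m + n) g = koop Y n (koop Y m g) := by
  refine Lp.ext ?_
  filter_upwards [koop_coe Y (m + n) g, koop_coe Y n (koop Y m g),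
    (mp_zpow Y n).quasiMeasurePreserving.ae (koop_coe Y m g)] with x h1 h2 h3
  rw [h1, h2, h3, zpow_add]
  rfl

lemma memLp_mul_ex (n : ℤ) (g : Lp ℂ 2 cm) : MemLp (fun ξ => ex (-(n * ξ)) * g ξ) 2 cm := by
  refine MemLp.of_le (Lp.memLp g) ?_ (ae_of_all _ fun ξ => by rw [norm_mul, norm_ex, one_mul])
  exact (Continuous.aestronglyMeasurable (by fun_prop)).mul (Lp.aestronglyMeasurable g)

/-- Multiplication by `ex (-n ξ)`. -/
noncomputable def mult (n : ℤ) : Lp ℂ 2 cm →ₗᵢ[ℂ] Lp ℂ 2 cm where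
  toFun g := (memLp_mul_ex n g).toLp _
  map_add' g h := by
    refine Lp.ext ?_
    filter_upwards [(memLp_mul_ex n (g + h)).coeFn_toLp, (memLp_mul_ex n g).coeFn_toLp,
      (memLp_mul_ex n h).coeFn_toLp, Lp.coeFn_add g h,
      Lp.coeFn_add ((memLp_mul_ex n g).toLp _) ((memLp_mul_ex n h).toLp _)] with ξ a b c d e
    rw [a, e, Pi.add_apply, b, c, d, Pi.add_apply, mul_add]
  map_smul' s g := by
    refine Lp.ext ?_
    filter_upwards [(memLp_mul_ex n (s • g)).coeFn_toLp, (memLp_mul_ex n g).coeFn_toLp,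
      Lp.coeFn_smul s g, Lp.coeFn_smul s ((memLp_mul_ex n g).toLp _)] with ξ a b d e
    simp only [RingHom.id_apply]
    rw [a, e, Pi.smul_apply, b, d, Pi.smul_apply, smul_eq_mul, smul_eq_mul]
    ring
  norm_map' g := by
    show ‖(memLp_mul_ex n g).toLp _‖ = ‖g‖
    rw [← sq_eq_sq₀ (norm_nonneg _) (norm_nonneg _), norm_sq_Lp, norm_sq_Lp]
    refine integral_congr_ae ?_
    filter_upwards [(memLp_mul_ex n g).coeFn_toLp] with ξ h
    rw [h, norm_mul, norm_ex, one_mul]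

lemma mult_coe (n : ℤ) (g : Lp ℂ 2 cm) : mult n g =ᵐ[cm] fun ξ => ex (-(n * ξ)) * g ξ :=
  (memLp_mul_ex n g).coeFn_toLp

lemma mult_add (m n : ℤ) (g : Lp ℂ 2 cm) : mult (m + n) g = mult n (mult m g) := by
  refine Lp.ext ?_
  filter_upwards [mult_coe (m + n) g, mult_coe n (mult m g), mult_coe m g] with ξ h1 h2 h3
  rw [h1, h2, h3, ← mul_assoc, ← ex_add]
  congr 2
  push_cast
  ring

lemma shift_one {x : Lp ℂ 2 Y.μ × Lp ℂ 2 cm} (hx : x ∈ graph Y Z) :
    (koop Y 1 x.1, mult 1 x.2) ∈ graph Y Z := by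
  obtain ⟨J, a, ha, h1, h2⟩ := hx
  have hs : ∑ k ∈ range (C.H (J + 1)), up C J a k = 0 := by rw [sum_up, ha, mul_zero]
  refine ⟨J + 1, down C (J + 1) (up C J a), by rw [sum_down _ _ (up_zero C J a), hs], ?_, ?_⟩
  · filter_upwards [koop_coe Y 1 x.1, Y.mp.quasiMeasurePreserving.ae (h1.trans (step_up Y J a).symm),
      step_down Y (J + 1) (up C J a) (up_zero C J a)] with p e1 e2 e3
    rw [e1, ← e3, ← e2, zpow_one]
    rfl
  · filter_upwards [mult_coe 1 x.2, h2, img_up Y Z J a ha,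
      img_down Y Z (J + 1) (up C J a) hs (up_zero C J a)] with ξ e1 e2 e3 e4
    rw [e1, e2, ← e3, ← e4, ← mul_assoc, ← ex_add]
    norm_num [ex_zero]

lemma shift_neg_one {x : Lp ℂ 2 Y.μ × Lp ℂ 2 cm} (hx : x ∈ graph Y Z) :
    (koop Y (-1) x.1, mult (-1) x.2) ∈ graph Y Z := by
  obtain ⟨J, a, ha, h1, h2⟩ := hx
  set b := up C J a with hb
  have hs : ∑ k ∈ range (C.H (J + 1)), b k = 0 := by rw [hb, sum_up, ha, mul_zero]
  have hd := down_raise (C := C) (J + 1) b (up_last C J a)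
  have h0 : raise b 0 = 0 := by simp [raise]
  have hr : ∑ k ∈ range (C.H (J + 1)), raise b k = 0 := by
    rw [← sum_down _ _ h0, sum_congr rfl fun k hk => hd k (mem_range.1 hk), hs]
  refine ⟨J + 1, raise b, hr, ?_, ?_⟩
  · have hmp := (Y.mp.symm Y.T).quasiMeasurePreserving
    filter_upwards [koop_coe Y (-1) x.1, hmp.ae (h1.trans (step_up Y J a).symm),
      hmp.ae (step_down Y (J + 1) (raise b) h0)] with p e1 e2 e3
    rw [e1, zpow_neg, zpow_one]
    show x.1 (Y.T.symm p) = _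
    rw [e2, ← hb, ← step_congr Y (J + 1) _ _ hd, ← e3, MeasurableEquiv.apply_symm_apply]
  · filter_upwards [mult_coe (-1) x.2, h2, img_up Y Z J a ha,
      img_down Y Z (J + 1) (raise b) hr h0] with ξ e1 e2 e3 e4
    rw [e1, e2, ← e3, ← hb, ← e4, img_congr Y Z (J + 1) _ _ hd]
    norm_num

lemma shift_mem {x : Lp ℂ 2 Y.μ × Lp ℂ 2 cm} (hx : x ∈ graphC Y Z) (n : ℤ) :
    (koop Y n x.1, mult n x.2) ∈ graphC Y Z := by
  refine map_mem_closure (f := fun x => (koop Y n x.1, mult n x.2)) (by fun_prop) hx ?_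
  intro y hy
  induction n with
  | zero =>
    have e1 : koop Y 0 y.1 = y.1 := Lp.ext (by
      filter_upwards [koop_coe Y 0 y.1] with p hp
      simpa using hp)
    have e2 : mult 0 y.2 = y.2 := Lp.ext (by
      filter_upwards [mult_coe 0 y.2] with ξ hξ
      simpa [ex_zero] using hξ)
    simpa [e1, e2] using hy
  | succ k ih => simpa [koop_add, mult_add] using shift_one Y Z ih
  | pred k ih =>
    rw [sub_eq_add_neg]
    simpa [koop_add, mult_add] using shift_neg_one Y Z ih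

lemma step_dense {g : Lp ℂ 2 Y.μ} (hg : ∫ x, g x ∂Y.μ = 0) :
    g ∈ closure (Prod.fst '' (graph Y Z : Set (Lp ℂ 2 Y.μ × Lp ℂ 2 cm))) := by
  have := Y.prob
  rw [Metric.mem_closure_iff]
  intro ε hε
  have hw : 0 < Real.sqrt (Y.w 0) := Real.sqrt_pos.2 (Y.w_pos 0)
  obtain ⟨δ, hδ, hδε⟩ : ∃ δ : ℝ, 0 < δ ∧ δ + δ / Real.sqrt (Y.w 0) < ε := by
    refine ⟨ε / 2 / (1 + 1 / Real.sqrt (Y.w 0)), by positivity, ?_⟩
    rw [show ∀ δ : ℝ, δ + δ / Real.sqrt (Y.w 0) = δ * (1 + 1 / Real.sqrt (Y.w 0)) from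
      fun δ => by ring, div_mul_cancel₀ _ (by positivity)]
    linarith
  obtain ⟨J, a, ha⟩ := Y.dense g (Lp.memLp g) (δ ^ 2) (by positivity)
  have hH : (0 : ℝ) < C.H J := by exact_mod_cast H_pos C J
  obtain ⟨s, hs⟩ : ∃ s : ℂ, s = (∑ k ∈ range (C.H J), a k) / (C.H J : ℂ) := ⟨_, rfl⟩
  let b : ℕ → ℂ := a + (-s) • fun _ => 1
  have hb : ∑ k ∈ range (C.H J), b k = 0 := by
    have : (C.H J : ℂ) ≠ 0 := by exact_mod_cast (H_pos C J).ne'
    simp [b, sum_add_distrib, hs]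
    field_simp
    ring
  let u := (memLp_step Y J a).toLp _
  let v := (memLp_step Y J b).toLp _
  refine ⟨v, ⟨(v, (memLp_img Y Z J b).toLp _), ⟨J, b, hb, (memLp_step Y J b).coeFn_toLp,
    (memLp_img Y Z J b).coeFn_toLp⟩, rfl⟩, ?_⟩
  have h1 : ‖g - u‖ < δ := by
    refine lt_of_pow_lt_pow_left₀ 2 hδ.le ?_
    rw [norm_sq_Lp]
    refine lt_of_eq_of_lt (integral_congr_ae ?_) ha
    filter_upwards [Lp.coeFn_sub g u, (memLp_step Y J a).coeFn_toLp] with x e1 e2
    rw [e1, Pi.sub_apply, e2]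
  have h2 : ‖u - v‖ ≤ ‖g - u‖ / Real.sqrt (Y.w 0) := by
    rw [le_div_iff₀ hw, ← sq_le_sq₀ (by positivity) (norm_nonneg _), mul_pow,
      Real.sq_sqrt (Y.w_pos 0).le, norm_sq_Lp]
    have e : ∫ x, ‖(u - v : Lp ℂ 2 Y.μ) x‖ ^ 2 ∂Y.μ = Y.w J * (C.H J * ‖s‖ ^ 2) := by
      have e1 : ∫ x, ‖(u - v : Lp ℂ 2 Y.μ) x‖ ^ 2 ∂Y.μ =
          ∫ x, ‖stepFun (Y.lev J) (C.H J) (s • fun _ => (1 : ℂ)) x‖ ^ 2 ∂Y.μ := by
        refine integral_congr_ae ?_
        filter_upwards [Lp.coeFn_sub u v, (memLp_step Y J a).coeFn_toLp,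
          (memLp_step Y J b).coeFn_toLp] with x f1 f2 f3
        rw [f1, Pi.sub_apply, f2, f3, step_add, step_smul, step_smul]
        congr 2
        ring
      rw [e1, norm_step]
      simp
    have h3 : ‖(Y.w J : ℂ) * ∑ k ∈ range (C.H J), a k‖ ≤ ‖g - u‖ := by
      have i1 : Integrable (⇑(g - u : Lp ℂ 2 Y.μ)) Y.μ :=
        (Lp.memLp (g - u)).integrable one_le_two
      have e2 : (Y.w J : ℂ) * ∑ k ∈ range (C.H J), a k = -∫ x, (g - u : Lp ℂ 2 Y.μ) x ∂Y.μ := by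
        rw [integral_congr_ae (Lp.coeFn_sub g u)]
        simp only [Pi.sub_apply]
        rw [integral_sub ((Lp.memLp g).integrable one_le_two) ((Lp.memLp u).integrable one_le_two),
          hg, zero_sub, neg_neg, integral_congr_ae (memLp_step Y J a).coeFn_toLp, integral_step]
      rw [e2, norm_neg]
      refine (norm_integral_le_integral_norm _).trans ?_
      have q : ∫ x, ‖(g - u : Lp ℂ 2 Y.μ) x‖ ∂Y.μ ≤ ‖g - u‖ := by
        rw [Lp.norm_def, integral_norm_eq_lintegral_enorm i1.aestronglyMeasurable,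
          ← eLpNorm_one_eq_lintegral_enorm]
        exact ENNReal.toReal_mono (Lp.eLpNorm_ne_top _)
          (eLpNorm_le_eLpNorm_of_exponent_le one_le_two i1.aestronglyMeasurable)
      exact q
    rw [e]
    have e3 : (Y.w J : ℂ) * ∑ k ∈ range (C.H J), a k = ((Y.w J * C.H J : ℝ) : ℂ) * s := by
      rw [hs]
      have : (C.H J : ℂ) ≠ 0 := by exact_mod_cast (H_pos C J).ne'
      push_cast
      field_simp
    rw [e3, norm_mul, Complex.norm_real, Real.norm_eq_abs,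
      abs_of_nonneg (mul_nonneg (Y.w_pos J).le hH.le)] at h3
    calc Y.w J * (C.H J * ‖s‖ ^ 2) * Y.w 0
        ≤ Y.w J * (C.H J * ‖s‖ ^ 2) * (Y.w J * C.H J) :=
          mul_le_mul_of_nonneg_left (mass_ge Y J)
            (mul_nonneg (Y.w_pos J).le (by positivity))
      _ = (Y.w J * C.H J * ‖s‖) ^ 2 := by ring
      _ ≤ ‖g - u‖ ^ 2 := pow_le_pow_left₀ (mul_nonneg (mul_nonneg (Y.w_pos J).le hH.le)
          (norm_nonneg _)) h3 2
  calc dist g v ≤ ‖g - u‖ + ‖u - v‖ := by rw [dist_eq_norm]; exact norm_sub_le_norm_sub_add_norm_sub _ _ _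
    _ < ε := by
      have : ‖g - u‖ / Real.sqrt (Y.w 0) ≤ δ / Real.sqrt (Y.w 0) := by gcongr
      linarith

lemma two_le_H_one (C : Chain) : 2 ≤ C.H 1 := by
  rw [C.H_succ]
  have h1 := C.trail 0 0
  have h2 := C.lead 0 0
  exact le_trans (by omega) (Nat.le_mul_of_pos_left _ (C.p_pos 0))

lemma sum_dif_one (C : Chain) (φ : ℕ → ℂ) :
    ∑ k ∈ range (C.H 1), dif (fun _ => 1) 1 k * φ k = φ 1 - φ 0 := by
  have h2 := two_le_H_one C
  simp only [dif, sub_mul, sum_sub_distrib]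
  rw [sum_eq_single 1, sum_eq_single 0]
  · norm_num
  · intro k _ hk
    rw [if_neg (by omega), zero_mul]
  · exact fun h => absurd (mem_range.2 (by omega)) h
  · intro k _ hk
    rw [if_neg (by omega), zero_mul]
  · exact fun h => absurd (mem_range.2 (by omega)) h

lemma sum_d (C : Chain) : ∑ k ∈ range (C.H 1), dif (fun _ => 1) 1 k = 0 := by
  simpa using sum_dif_one C fun _ => 1

lemma ae_one : (fun ξ => tp (anti (dif (fun _ => 1) 1)) (C.H 1 - 1) ξ) =ᵐ[cm] fun _ => 1 := by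
  filter_upwards [ae_ne_one] with ξ hξ
  refine mul_left_cancel₀ hξ ?_
  rw [tp_anti _ (H_pos C 1) (sum_d C), mul_one, tp,
    sum_dif_one C fun k : ℕ => ex ((k : ℝ) * ξ)]
  simp [ex_zero]

theorem spectralStmt_of (hC : CircleStmt) : SpectralStmt := by
  intro C Y
  obtain ⟨Z⟩ := hC C
  have := Y.prob
  have hcomp : IsComplete (graphC Y Z : Set (Lp ℂ 2 Y.μ × Lp ℂ 2 cm)) :=
    (Submodule.isClosed_topologicalClosure _).isComplete
  have : CompleteSpace (graphC Y Z) := hcomp.completeSpace_coe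
  have hsnd : IsClosed (Set.range fun x : graphC Y Z => x.1.2) := by
    refine (Isometry.isClosedEmbedding ?_).isClosed_range
    refine Isometry.of_dist_eq fun x y => ?_
    rw [dist_eq_norm, Subtype.dist_eq, dist_eq_norm, Prod.norm_def,
      norm_graphC Y Z (sub_mem x.2 y.2), max_self, Prod.snd_sub]
  have hfst : IsClosed (Set.range fun x : graphC Y Z => x.1.1) := by
    refine (Isometry.isClosedEmbedding ?_).isClosed_range
    refine Isometry.of_dist_eq fun x y => ?_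
    rw [dist_eq_norm, Subtype.dist_eq, dist_eq_norm, Prod.norm_def,
      ← norm_graphC Y Z (sub_mem x.2 y.2), max_self, Prod.fst_sub]
  let e1 : Lp ℂ 2 cm := (memLp_const (1 : ℂ)).toLp _
  have he1 : e1 =ᵐ[cm] fun _ => 1 := (memLp_const (1 : ℂ)).coeFn_toLp
  let R : Submodule ℂ (Lp ℂ 2 cm) :=
    (graphC Y Z).map (LinearMap.snd ℂ (Lp ℂ 2 Y.μ) (Lp ℂ 2 cm))
  have hRc : IsClosed (R : Set (Lp ℂ 2 cm)) := by
    convert hsnd using 1
    ext v
    simp [R]
  have honto : R = ⊤ := by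
    have : CompleteSpace R := hRc.completeSpace_coe
    rw [← Submodule.orthogonal_eq_bot_iff, Submodule.eq_bot_iff]
    intro h hh
    let d : ℕ → ℂ := dif (fun _ => 1) 1
    have hd : ∑ k ∈ range (C.H 1), d k = 0 := sum_d C
    let y0 : Lp ℂ 2 Y.μ × Lp ℂ 2 cm :=
      ((memLp_step Y 1 d).toLp _, (memLp_img Y Z 1 d).toLp _)
    have hy0 : y0 ∈ graphC Y Z := Submodule.le_topologicalClosure _
      ⟨1, d, hd, (memLp_step Y 1 d).coeFn_toLp, (memLp_img Y Z 1 d).coeFn_toLp⟩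
    have hz : (fun ξ => conj (y0.2 ξ) * h ξ) =ᵐ[cm] 0 := by
      refine uniqueStmt _ ?_ fun n => ?_
      · exact (L2.integrable_inner (𝕜 := ℂ) y0.2 h).congr (ae_of_all _ fun ξ => by simp [mul_comm])
      · have h0 := hh (mult n y0.2) ⟨_, shift_mem Y Z hy0 n, rfl⟩
        rw [L2.inner_def] at h0
        rw [← h0]
        refine integral_congr_ae ?_
        filter_upwards [mult_coe n y0.2] with ξ hξ
        rw [RCLike.inner_apply', hξ, map_mul, conj_ex, neg_neg]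
        ring
    refine Lp.ext ?_
    filter_upwards [hz, (memLp_img Y Z 1 d).coeFn_toLp, ae_one (C := C), Z.ne_zero 1,
      Lp.coeFn_zero ℂ 2 cm] with ξ h1 h2 h3 h4 h5
    rw [h5]
    simp only [Pi.zero_apply, y0, h2, img] at h1 ⊢
    simp only [d, h3, one_mul, mul_eq_zero, map_eq_zero, h4, or_false, Complex.ofReal_eq_zero,
      (Real.sqrt_pos.2 (Y.w_pos 1)).ne', false_or] at h1
    exact h1
  obtain ⟨⟨f, e⟩, hfe, he⟩ : e1 ∈ R := honto ▸ Submodule.mem_top
  rw [LinearMap.snd_apply] at he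
  have he' : e =ᵐ[cm] fun _ => 1 := (show e = e1 from he) ▸ he1
  refine ⟨f, Lp.memLp f, ?_, fun n m => ?_, fun g hg hg0 horth => ?_⟩
  · have hcont : Continuous fun x : Lp ℂ 2 Y.μ × Lp ℂ 2 cm => ∫ p, x.1 p ∂Y.μ := by
      have e : (fun x : Lp ℂ 2 Y.μ × Lp ℂ 2 cm => ∫ p, x.1 p ∂Y.μ) = fun x =>
          ⟪(memLp_const (1 : ℂ)).toLp (μ := Y.μ) (p := 2) (fun _ : ℝ => (1 : ℂ)), x.1⟫_ℂ := by
        ext x
        rw [L2.inner_def]
        refine integral_congr_ae ?_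
        filter_upwards [(memLp_const (1 : ℂ) (μ := Y.μ) (p := 2)).coeFn_toLp] with p hp
        rw [RCLike.inner_apply', hp, map_one, one_mul]
      rw [e]
      fun_prop
    refine closure_minimal ?_ (isClosed_eq hcont continuous_const) hfe
    rintro y ⟨J, a, ha, h1, -⟩
    show ∫ p, y.1 p ∂Y.μ = 0
    rw [integral_congr_ae h1, integral_step, ha, mul_zero]
  · have h := inner_graphC Y Z (shift_mem Y Z hfe n) (shift_mem Y Z hfe m)
    rw [L2.inner_def, L2.inner_def] at h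
    refine Eq.trans (integral_congr_ae ?_) (h.trans ?_)
    · filter_upwards [koop_coe Y n f, koop_coe Y m f] with x a b
      rw [RCLike.inner_apply', a, b]
    · rw [integral_congr_ae (g := fun ξ => ex (((n - m : ℤ) : ℝ) * ξ)) ?_, integral_ex]
      · simp only [sub_eq_zero]
      · filter_upwards [mult_coe n e, mult_coe m e, he'] with ξ a b c
        rw [RCLike.inner_apply', a, b, c, mul_one, mul_one, conj_ex, ← ex_add]
        congr 1
        push_cast
        ring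
  · let G : Lp ℂ 2 Y.μ := hg.toLp g
    have hG : G ∈ Set.range fun x : graphC Y Z => x.1.1 := by
      refine closure_minimal ?_ hfst (step_dense Y Z ?_)
      · rintro _ ⟨y, hy, rfl⟩
        exact ⟨⟨y, Submodule.le_topologicalClosure _ hy⟩, rfl⟩
      · rw [integral_congr_ae hg.coeFn_toLp, hg0]
    obtain ⟨⟨⟨G', v⟩, hv⟩, rfl : G' = G⟩ := hG
    have hv0 : v =ᵐ[cm] 0 := by
      refine uniqueStmt _ ((Lp.memLp v).integrable one_le_two) fun n => ?_
      have h := inner_graphC Y Z (shift_mem Y Z hfe n) hv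
      rw [L2.inner_def, L2.inner_def] at h
      refine Eq.trans (integral_congr_ae ?_) (h.symm.trans ?_)
      · filter_upwards [mult_coe n e, he'] with ξ a c
        rw [RCLike.inner_apply', a, c, mul_one, conj_ex, neg_neg]
      · rw [← horth n]
        refine integral_congr_ae ?_
        filter_upwards [koop_coe Y n f, hg.coeFn_toLp] with x a b
        rw [RCLike.inner_apply', a, b]
    have hG0 : G = 0 := by
      have hv' : v = 0 := Lp.ext (hv0.trans (Lp.coeFn_zero ℂ 2 cm).symm)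
      have := norm_graphC Y Z hv
      rwa [show ((G, v) : Lp ℂ 2 Y.μ × Lp ℂ 2 cm).2 = 0 from hv', norm_zero, norm_eq_zero] at this
    filter_upwards [hg.coeFn_toLp, Lp.coeFn_zero ℂ 2 Y.μ] with x a b
    rw [← a, show hg.toLp g = 0 from hG0, b]

end Vale.Agent.P130.Simple.Spectral
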