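import Vale.Agent.P130.Simple.Spectral.Base

/-!
# P130: mean zero step functions and their images on the circle
-/

open Finset MeasureTheory
open scoped ComplexConjugate

namespace Vale.Agent.P130.Simple.Spectral

open Vale.Agent.P110.UF (ex)

variable {C : Chain}

/-- The partial sums, `a = (z - 1) anti a` when `a` has sum zero. -/
def anti (a : ℕ → ℂ) (n : ℕ) : ℂ := -∑ i ∈ range (n + 1), a i

/-- The image on the circle of a mean zero step function. -/
noncomputable def img {C : Chain} (Y : System C) (Z : Circle C) (J : ℕ) (a : ℕ → ℂ) (ξ : ℝ) : ℂ :=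
  (Real.sqrt (Y.w J) : ℂ) * (tp (anti a) (C.H J - 1) ξ * Z.psi J ξ)

/-- The coefficients shifted down by one place. -/
def down (C : Chain) (J : ℕ) (a : ℕ → ℂ) (n : ℕ) : ℂ := if n + 1 < C.H J then a (n + 1) else 0

/-- The coefficients shifted up by one place. -/
def raise (a : ℕ → ℂ) (n : ℕ) : ℂ := if n = 0 then 0 else a (n - 1)

lemma H_pos (C : Chain) (J : ℕ) : 0 < C.H J := by
  cases J with
  | zero => rw [C.H_zero]; exact one_pos
  | succ J =>
    rw [C.H_succ]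
    have := C.trail J 0
    exact Nat.mul_pos (C.p_pos J) (by omega)

lemma dif_anti (a : ℕ → ℂ) (n : ℕ) (h0 : ∑ k ∈ range (n + 1), a k = 0) (m : ℕ)
    (hm : m ∈ range (n + 1)) : dif (anti a) n m = a m := by
  rw [mem_range] at hm
  rcases Nat.eq_zero_or_pos m with rfl | hpos
  · rcases Nat.eq_zero_or_pos n with rfl | hn
    · simpa [dif, eq_comm] using h0
    · simp [dif, anti, hn]
  · obtain ⟨l, rfl⟩ : ∃ l, m = l + 1 := ⟨m - 1, by omega⟩
    rw [dif, if_pos ⟨hpos, by omega⟩, Nat.add_sub_cancel]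
    by_cases hl : l + 1 < n
    · rw [if_pos hl, anti, anti, sum_range_succ (n := l + 1)]
      ring
    · obtain rfl : n = l + 1 := by omega
      rw [if_neg hl, anti, sub_zero]
      rw [sum_range_succ] at h0
      linear_combination -h0

lemma tp_anti (a : ℕ → ℂ) {N : ℕ} (hN : 0 < N) (h0 : ∑ k ∈ range N, a k = 0) (ξ : ℝ) :
    (ex ξ - 1) * tp (anti a) (N - 1) ξ = tp a N ξ := by
  rw [← tp_dif]
  obtain ⟨n, rfl⟩ : ∃ n, N = n + 1 := ⟨N - 1, by omega⟩
  rw [Nat.add_sub_cancel]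
  exact sum_congr rfl fun m hm => by rw [dif_anti a n h0 m hm]

lemma ae_ne_one : ∀ᵐ ξ ∂cm, ex ξ - 1 ≠ 0 := by
  rw [cm]
  filter_upwards [ae_restrict_mem measurableSet_Ioc,
    ae_restrict_of_ae (Measure.ae_ne (volume : Measure ℝ) 1)] with ξ hξ h1 h0
  rw [sub_eq_zero, Vale.Agent.P110.UF.ex, Complex.exp_eq_one_iff] at h0
  obtain ⟨n, hn⟩ := h0
  have h2 : (2 * Real.pi * ξ) = n * (2 * Real.pi) := by
    have := congrArg Complex.im hn
    simpa using this
  have h3 : ξ = n := by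
    have hp : (2 * Real.pi) ≠ 0 := by positivity
    field_simp at h2
    linarith
  subst h3
  obtain ⟨ha, hb⟩ := hξ
  have hn0 : (0 : ℤ) < n := by exact_mod_cast ha
  have hn1 : n ≤ (1 : ℤ) := by exact_mod_cast hb
  exact h1 (by norm_num [show n = 1 by omega])

lemma up_zero (C : Chain) (J : ℕ) (a : ℕ → ℂ) : up C J a 0 = 0 := by
  refine sum_eq_zero fun i _ => sum_eq_zero fun k _ => if_neg ?_
  have := C.lead J i
  simp only [Chain.t]
  omega

lemma up_last (C : Chain) (J : ℕ) (a : ℕ → ℂ) : up C J a (C.H (J + 1) - 1) = 0 := by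
  refine sum_eq_zero fun i hi => sum_eq_zero fun k hk => if_neg ?_
  rw [mem_range] at hi hk
  have h1 : (i + 1) * C.B J ≤ C.p J * C.B J := Nat.mul_le_mul_right _ hi
  have h2 := C.trail J i
  rw [C.H_succ, Chain.t]
  rw [Nat.succ_mul] at h1
  omega

lemma sum_up_mul (C : Chain) (J : ℕ) (a φ : ℕ → ℂ) :
    ∑ m ∈ range (C.H (J + 1)), up C J a m * φ m =
      ∑ i ∈ range (C.p J), ∑ k ∈ range (C.H J), a k * φ (C.t J i + k) := by
  simp only [up, sum_mul]
  rw [sum_comm]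
  refine sum_congr rfl fun i hi => ?_
  rw [sum_comm]
  refine sum_congr rfl fun k hk => ?_
  rw [sum_eq_single (C.t J i + k), if_pos rfl]
  · intro m _ hne
    rw [if_neg (Ne.symm hne), zero_mul]
  · exact fun h => absurd (mem_range.2 (t_add_lt (mem_range.1 hi) (mem_range.1 hk))) h

lemma sum_up (C : Chain) (J : ℕ) (a : ℕ → ℂ) :
    ∑ m ∈ range (C.H (J + 1)), up C J a m = (C.p J : ℂ) * ∑ k ∈ range (C.H J), a k := by
  simpa using sum_up_mul C J a fun _ => 1

variable (Y : System C) (Z : Circle C)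

lemma sqrt_w (J : ℕ) : Real.sqrt (Y.w (J + 1)) * Real.sqrt (C.p J) = Real.sqrt (Y.w J) := by
  rw [← Real.sqrt_mul (Y.w_pos _).le, Y.w_succ]

lemma memLp_img (J : ℕ) (a : ℕ → ℂ) : MemLp (img Y Z J a) 2 cm := by
  refine MemLp.of_le_mul (c := Real.sqrt (Y.w J) * ∑ k ∈ range (C.H J - 1), ‖anti a k‖) (Z.memLp J)
    (Measurable.aestronglyMeasurable ?_) (ae_of_all _ fun ξ => ?_)
  · exact ((continuous_tp _ _).measurable.mul (Z.meas J)).const_mul _
  · rw [img, norm_mul, norm_mul, Complex.norm_real, Real.norm_eq_abs,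
      abs_of_nonneg (Real.sqrt_nonneg _), ← mul_assoc]
    refine mul_le_mul_of_nonneg_right (mul_le_mul_of_nonneg_left ?_ (Real.sqrt_nonneg _))
      (norm_nonneg _)
    exact (norm_sum_le _ _).trans (sum_le_sum fun k _ => by rw [norm_mul, norm_ex, mul_one])

lemma norm_img (J : ℕ) (a : ℕ → ℂ) (h0 : ∑ k ∈ range (C.H J), a k = 0) :
    ∫ ξ, ‖img Y Z J a ξ‖ ^ 2 ∂cm = Y.w J * ∑ k ∈ range (C.H J), ‖a k‖ ^ 2 := by
  obtain ⟨n, hn⟩ : ∃ n, C.H J = n + 1 := ⟨C.H J - 1, by have := H_pos C J; omega⟩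
  simp only [img, norm_mul (Real.sqrt (Y.w J) : ℂ), mul_pow, Complex.norm_real, Real.norm_eq_abs,
    sq_abs, Real.sq_sqrt (Y.w_pos J).le]
  rw [integral_const_mul, hn, Nat.add_sub_cancel, Z.norm J n hn.ge]
  rw [hn] at h0
  exact congrArg _ (sum_congr rfl fun m hm => by rw [dif_anti a n h0 m hm])

lemma img_up (J : ℕ) (a : ℕ → ℂ) (h0 : ∑ k ∈ range (C.H J), a k = 0) :
    img Y Z (J + 1) (up C J a) =ᵐ[cm] img Y Z J a := by
  filter_upwards [Z.refine_eq J, ae_ne_one] with ξ hψ hne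
  apply mul_left_cancel₀ hne
  have h1 : ∑ m ∈ range (C.H (J + 1)), up C J a m = 0 := by rw [sum_up, h0, mul_zero]
  simp only [img, hψ]
  have e1 := tp_anti (up C J a) (H_pos C (J + 1)) h1 ξ
  have e2 := tp_anti a (H_pos C J) h0 ξ
  rw [tp_up] at e1
  have e3 : ((Real.sqrt (Y.w (J + 1)) : ℂ)) * (Real.sqrt (C.p J) : ℂ) = (Real.sqrt (Y.w J) : ℂ) := by
    exact_mod_cast sqrt_w Y J
  linear_combination ((Real.sqrt (Y.w (J + 1)) : ℂ) * Z.psi (J + 1) ξ) * e1 -
    ((Real.sqrt (Y.w J) : ℂ) * C.P J ξ * Z.psi (J + 1) ξ) * e2 +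
    (C.P J ξ * tp a (C.H J) ξ * Z.psi (J + 1) ξ) * e3

lemma tp_down (J : ℕ) (a : ℕ → ℂ) (ha : a 0 = 0) (ξ : ℝ) :
    ex ξ * tp (down C J a) (C.H J) ξ = tp a (C.H J) ξ := by
  obtain ⟨n, hn⟩ : ∃ n, C.H J = n + 1 := ⟨C.H J - 1, by have := H_pos C J; omega⟩
  rw [tp, tp, hn, sum_range_succ, mul_add, mul_sum]
  conv_rhs => rw [sum_range_succ', ha, zero_mul, add_zero]
  rw [down, if_neg (by omega), zero_mul, mul_zero, add_zero]
  refine sum_congr rfl fun i hi => ?_
  rw [down, if_pos (by rw [mem_range] at hi; omega),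
    show ((i + 1 : ℕ) : ℝ) * ξ = ξ + i * ξ by push_cast; ring, ex_add]
  ring

lemma sum_down (J : ℕ) (a : ℕ → ℂ) (ha : a 0 = 0) :
    ∑ k ∈ range (C.H J), down C J a k = ∑ k ∈ range (C.H J), a k := by
  have := tp_down (C := C) J a ha 0
  simpa [tp, ex_zero] using this

lemma img_down (J : ℕ) (a : ℕ → ℂ) (h0 : ∑ k ∈ range (C.H J), a k = 0) (ha : a 0 = 0) :
    (fun ξ => ex ξ * img Y Z J (down C J a) ξ) =ᵐ[cm] img Y Z J a := by
  filter_upwards [ae_ne_one] with ξ hne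
  apply mul_left_cancel₀ hne
  have h1 : ∑ k ∈ range (C.H J), down C J a k = 0 := by rw [sum_down J a ha, h0]
  have e1 := tp_anti (down C J a) (H_pos C J) h1 ξ
  have e2 := tp_anti a (H_pos C J) h0 ξ
  simp only [img]
  linear_combination ((Real.sqrt (Y.w J) : ℂ) * Z.psi J ξ * ex ξ) * e1 -
    ((Real.sqrt (Y.w J) : ℂ) * Z.psi J ξ) * e2 +
    ((Real.sqrt (Y.w J) : ℂ) * Z.psi J ξ) * tp_down J a ha ξ

lemma down_raise (J : ℕ) (b : ℕ → ℂ) (hb : b (C.H J - 1) = 0) (n : ℕ) (hn : n < C.H J) :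
    down C J (raise b) n = b n := by
  by_cases h : n + 1 < C.H J
  · simp [down, raise, h]
  · rw [down, if_neg h, show n = C.H J - 1 by omega, hb]

/-! ### The space side -/

lemma stepFun_of_mem {J n : ℕ} (a : ℕ → ℂ) (hn : n < C.H J) {x : ℝ} (hx : x ∈ Y.lev J n) :
    stepFun (Y.lev J) (C.H J) a x = a n := by
  rw [stepFun, sum_eq_single n, Set.indicator_of_mem hx]
  · intro m hm hne
    exact Set.indicator_of_notMem
      (fun h => Set.disjoint_left.1 (Y.disj J m n (mem_range.1 hm) hn hne) h hx) _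
  · exact fun h => absurd (mem_range.2 hn) h

lemma norm_sq_stepFun (J : ℕ) (a : ℕ → ℂ) (x : ℝ) :
    ‖stepFun (Y.lev J) (C.H J) a x‖ ^ 2 =
      ∑ n ∈ range (C.H J), (Y.lev J n).indicator (fun _ => ‖a n‖ ^ 2) x := by
  by_cases h : ∃ n, n < C.H J ∧ x ∈ Y.lev J n
  · obtain ⟨n, hn, hx⟩ := h
    rw [stepFun_of_mem Y a hn hx, sum_eq_single n, Set.indicator_of_mem hx]
    · intro m hm hne
      exact Set.indicator_of_notMem
        (fun h => Set.disjoint_left.1 (Y.disj J m n (mem_range.1 hm) hn hne) h hx) _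
    · exact fun h => absurd (mem_range.2 hn) h
  · push Not at h
    rw [stepFun, sum_eq_zero fun n hn => Set.indicator_of_notMem (h n (mem_range.1 hn)) _,
      sum_eq_zero fun n hn => Set.indicator_of_notMem (h n (mem_range.1 hn)) _]
    simp

lemma memLp_step (J : ℕ) (a : ℕ → ℂ) : MemLp (stepFun (Y.lev J) (C.H J) a) 2 Y.μ := by
  have := Y.prob
  exact memLp_finsetSum _ fun n _ => memLp_indicator_const 2 (Y.meas J n) (a n)
    (Or.inr (measure_ne_top _ _))

lemma integral_indicator_lev {E : Type*} [NormedAddCommGroup E] [NormedSpace ℝ E] [CompleteSpace E]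
    (J n : ℕ) (hn : n < C.H J) (c : E) :
    ∫ x, (Y.lev J n).indicator (fun _ => c) x ∂Y.μ = Y.w J • c := by
  rw [integral_indicator_const _ (Y.meas J n), Y.mass J n hn]

lemma integral_step (J : ℕ) (a : ℕ → ℂ) :
    ∫ x, stepFun (Y.lev J) (C.H J) a x ∂Y.μ = (Y.w J : ℂ) * ∑ n ∈ range (C.H J), a n := by
  have := Y.prob
  simp only [stepFun]
  rw [integral_finsetSum _ fun n _ => (integrable_const _).indicator (Y.meas J n), mul_sum]
  exact sum_congr rfl fun n hn => by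
    rw [integral_indicator_lev Y J n (mem_range.1 hn), Complex.real_smul]

lemma norm_step (J : ℕ) (a : ℕ → ℂ) :
    ∫ x, ‖stepFun (Y.lev J) (C.H J) a x‖ ^ 2 ∂Y.μ = Y.w J * ∑ n ∈ range (C.H J), ‖a n‖ ^ 2 := by
  have := Y.prob
  simp only [norm_sq_stepFun]
  rw [integral_finsetSum _ fun n _ => (integrable_const _).indicator (Y.meas J n), mul_sum]
  exact sum_congr rfl fun n hn => by
    rw [integral_indicator_lev Y J n (mem_range.1 hn), smul_eq_mul]

lemma step_up (J : ℕ) (a : ℕ → ℂ) :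
    stepFun (Y.lev (J + 1)) (C.H (J + 1)) (up C J a) =ᵐ[Y.μ] stepFun (Y.lev J) (C.H J) a := by
  have key : ∀ x, stepFun (Y.lev (J + 1)) (C.H (J + 1)) (up C J a) x =
      ∑ i ∈ range (C.p J), ∑ k ∈ range (C.H J),
        a k * (Y.lev (J + 1) (C.t J i + k)).indicator (fun _ => (1 : ℂ)) x := fun x => by
    rw [← sum_up_mul C J a fun m => (Y.lev (J + 1) m).indicator (fun _ => (1 : ℂ)) x, stepFun]
    exact sum_congr rfl fun m _ => by by_cases h : x ∈ Y.lev (J + 1) m <;> simp [h]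
  have hae : ∀ᵐ x ∂Y.μ, ∀ k ∈ range (C.H J), (x ∈ Y.lev J k ↔
      x ∈ ⋃ i ∈ range (C.p J), Y.lev (J + 1) (C.t J i + k)) := by
    rw [(range (C.H J)).eventually_all]
    intro k hk
    exact Filter.eventuallyEq_set.1 (Y.split J k (mem_range.1 hk))
  filter_upwards [hae] with x hx
  rw [key, sum_comm, stepFun]
  refine sum_congr rfl fun k hk => ?_
  by_cases h : x ∈ Y.lev J k
  · obtain ⟨i, hi, hxi⟩ := Set.mem_iUnion₂.1 ((hx k hk).1 h)
    rw [Set.indicator_of_mem h, sum_eq_single i, Set.indicator_of_mem hxi, mul_one]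
    · intro i' hi' hne
      rw [Set.indicator_of_notMem, mul_zero]
      exact fun h' => Set.disjoint_left.1 (Y.disj (J + 1) _ _
        (t_add_lt (mem_range.1 hi') (mem_range.1 hk)) (t_add_lt (mem_range.1 hi) (mem_range.1 hk))
        (fun e => hne (t_add_inj (mem_range.1 hk) (mem_range.1 hk) e).1)) h' hxi
    · exact fun h' => absurd hi h'
  · rw [Set.indicator_of_notMem h]
    refine sum_eq_zero fun i hi => ?_
    rw [Set.indicator_of_notMem, mul_zero]
    exact fun h' => h ((hx k hk).2 (Set.mem_iUnion₂.2 ⟨i, hi, h'⟩))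

lemma step_down (J : ℕ) (a : ℕ → ℂ) (ha : a 0 = 0) :
    (fun x => stepFun (Y.lev J) (C.H J) a (Y.T x)) =ᵐ[Y.μ]
      stepFun (Y.lev J) (C.H J) (down C J a) := by
  obtain ⟨n, hn⟩ : ∃ n, C.H J = n + 1 := ⟨C.H J - 1, by have := H_pos C J; omega⟩
  have hae : ∀ᵐ x ∂Y.μ, ∀ i ∈ range n, (x ∈ Y.T ⁻¹' Y.lev J (i + 1) ↔ x ∈ Y.lev J i) := by
    rw [(range n).eventually_all]
    intro i hi
    exact Filter.eventuallyEq_set.1 (Y.shift J i (by rw [mem_range] at hi; omega))
  filter_upwards [hae] with x hx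
  simp only [stepFun, hn]
  rw [sum_range_succ', sum_range_succ]
  simp only [ha, down, hn, if_neg (Nat.lt_irrefl (n + 1)), Set.indicator_zero, add_zero]
  refine sum_congr rfl fun i hi => ?_
  rw [if_pos (by rw [mem_range] at hi; omega)]
  have := hx i hi
  simp only [Set.mem_preimage] at this
  by_cases h : x ∈ Y.lev J i
  · rw [Set.indicator_of_mem h, Set.indicator_of_mem (this.2 h)]
  · rw [Set.indicator_of_notMem h, Set.indicator_of_notMem fun h' => h (this.1 h')]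

lemma mass_ge (J : ℕ) : Y.w 0 ≤ Y.w J * C.H J := by
  induction J with
  | zero => simp [C.H_zero]
  | succ J ih =>
    refine ih.trans ?_
    rw [C.H_succ, Nat.cast_mul, ← mul_assoc, Y.w_succ]
    have := C.trail J 0
    exact mul_le_mul_of_nonneg_left (by exact_mod_cast (by omega : C.H J ≤ C.B J)) (Y.w_pos J).le

end Vale.Agent.P130.Simple.Spectral
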